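import Crest.Agent.X262.Hor83.Main
import Crest.Agent.X262.Surf.Defs2
import Crest.Agent.X262.Sark27.Term
import Crest.Agent.X262.KV.Srf
import Crest.Agent.X262.Surf.Bas
import Crest.Agent.X277.Unf.Main
import Crest.Agent.X262.RR.Main

-- ▼ part X262/Hor83/KExc
section

/-!
# Row 262, SURF (helper83): the relative canonical divisor is exceptional
-/

set_option autoImplicit false

namespace Crest.Agent.X262.Hor83

open Crest.Agent.X277 Crest.Agent.X277.BD Crest.Agent.X262.Mod Crest.Agent.X262.Surf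

theorem kExcStmt : KExcStmt := fun _ _ _ _ P P' b h y hy => by
  have h1 := bnum_exc (dim_two b) Br.free_oP (car_oP hy) (eqOn_sub.2 fun V hV =>
    (Sark27.kP_eq_val (b := b) hV ((car_oP h).prm hV)).symm)
  rwa [bnum_sub, sub_eq_zero] at h1

end Crest.Agent.X262.Hor83
end

-- ▼ part X262/KV/Bir
section

/-!
# Row 262, KV (helper68), part 6: `χ(O)` is a birational invariant

* `sec_adj`   : the sections of an adjoint class do not depend on the model;
* `kv_eq`     : `2 h⁰(K + a) = 2 χ(K + a)` for `a` nef and big;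
* `chiBir_of` : `Surf.ChiBirStmt`.
-/

set_option autoImplicit false

open Filter Module
open scoped KaehlerDifferential

noncomputable section

namespace Crest.Agent.X262.KV

open Crest.Agent.X277 Crest.Agent.X277.Lef Crest.Agent.X277.AN.G1 Crest.Agent.X277.BD
open Crest.Agent.X277.BD.Br (On oP kP)
open Crest.Agent.X262.Surf

variable {F : Type} [Field F] [Algebra ℂ F] [Algebra.EssFiniteType ℂ F] {P W : PModel ℂ F}
  {a a' : BD ℂ F} {c c' : ℤ} {n : ℕ}

theorem sec_adj_le (W : PModel ℂ F) (b : Basis (Fin n) F Ω[F⁄ℂ]) (ha : a ∈ On P) :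
    (kP W b + a).Sec ≤ (kP P b + a).Sec :=
  (Sark27.car_of_on (add_mem (Br.kP_mem b) ha)).Sec_le (Sark27.isMod_oP P) fun V hV => by
    rw [val_add, val_add]
    exact mul_le_mul_left (Sark27.kP_le_val W b hV) _

/-- the sections of an adjoint class do not depend on the model -/
theorem sec_adj (b : Basis (Fin n) F Ω[F⁄ℂ]) (ha : a ∈ On P) (ha' : a ∈ On W) :
    (kP W b + a).Sec = (kP P b + a).Sec := le_antisymm (sec_adj_le W b ha) (sec_adj_le P b ha')


theorem rr_basis (P : PModel ℂ F) (b b' : B2 F) (c : ℤ) (a : BD ℂ F) :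
    rr P b c a = rr P b' c a := by
  have h : Lin (a - kP P b) (a - kP P b') := by
    obtain ⟨f, hf, h⟩ := Br.lin_kP (P := P) b' b
    exact ⟨f, hf, by rw [h]; abel⟩
  rw [rr, rr, bnum_swap, h.bnum_eq, bnum_swap]

theorem chi_basis {b : B2 F} (b' : B2 F) (h : Chi P b c) : Chi P b' c := fun a ha =>
  (h a ha).mono fun _ hm => hm.trans (rr_basis P b b' c _)

/-- **vanishing**, as an equality -/
theorem kv_eq (hS : SerStmt) {b : B2 F} (hc : Chi P b c) (ha : a ∈ On P) (hN : Nef a)
    (hB : Big a) : 2 * h0 (kP P b + a) = rr P b c (kP P b + a) := by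
  have h1 := kvStmt F P b c hc a ha hN hB
  have h2 := hS F P b c hc _ (add_mem (Br.kP_mem b) ha)
  have h3 : 0 < bnum [a, a] := bnum_pos (Hor83.dim_two b).symm (by simpa using ⟨hN, hB⟩)
  rw [sub_add_cancel_left, h0_eq_zero (a := -a) hN (by rw [bnum_neg]; omega)] at h2
  omega

theorem chi_up (hS : SerStmt) {b : B2 F} (h : oP P ∈ On W) (hc : Chi P b c) (hc' : Chi W b c') :
    c = c' := by
  have h1 := kv_eq hS hc Br.oP_mem Br.free_oP.nef (FG.big_oP P)
  have h2 := kv_eq hS hc' h Br.free_oP.nef (FG.big_oP P)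
  rw [h0, sec_adj b Br.oP_mem h, ← h0, h1, rr, rr, add_sub_cancel_left, add_sub_cancel_left,
    bnum_add, bnum_add, Hor83.kExcStmt F P W b h _ Br.oP_mem] at h2
  omega

/-- **`χ(O)` is a birational invariant** -/
theorem chiBir_of (hR : RRStmt) (hS : SerStmt) : ChiBirStmt := by
  classical
  intro F _ _ _ P P' b b' c hc
  obtain ⟨W, hW⟩ := Unf.exists_on ({oP P, oP P'} : Finset (BD ℂ F))
  obtain ⟨c₁, h1⟩ := hR F W b
  obtain ⟨c₂, h2⟩ := hR F P' b
  rw [chi_up hS (hW _ (by simp)) hc h1, ← chi_up hS (hW _ (by simp)) h2 h1]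
  exact chi_basis b' h2

end Crest.Agent.X262.KV
end
end

-- ▼ part X262/RR/All

/-!
# Row 262, RR (helper28), part 4: `ChiBirStmt` and the Euler characteristic as a function

* `chiBirStmt : Surf.ChiBirStmt`;
* `even_rr`, `exists_chi` : `a · (a - K)` is even, the function `χ`.
-/

set_option autoImplicit false

open Filter Module

noncomputable section

namespace Crest.Agent.X262.RR

open Crest.Agent.X277 Crest.Agent.X277.Lef Crest.Agent.X277.BD
open Crest.Agent.X277.BD.Br (oP kP)
open Crest.Agent.X262.Surf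

theorem chiBirStmt : ChiBirStmt := KV.chiBir_of rrStmt serStmt

variable {F : Type} [Field F] [Algebra ℂ F] [Algebra.EssFiniteType ℂ F] {P : PModel ℂ F}
  {a : BD ℂ F}



end Crest.Agent.X262.RR
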